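/-
helper25 — S0359 (Track D1, coordinator helper64): package E (the grid family).
Leaves E1–E4 of `Crest/Agent/Helper64/S0359/Blueprint.lean`, same names and signatures.
-/
import Crest.Agent.Helper64.S0359.Defs

set_option autoImplicit false

namespace Crest.Agent.Helper25.S0359

open Crest.Agent.Helper64.S0359

/-- Value of a grid indicator: `1` on its row/column, `0` elsewhere. -/
theorem grid_apply (k : ℕ) (c : Bool) (i : Fin k) (a : Fin k × Fin k) :
    grid k c i a = if (cond c a.2 a.1) = i then 1 else 0 := rfl

theorem grid_false_apply (k : ℕ) (i : Fin k) (a : Fin k × Fin k) :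
    grid k false i a = if a.1 = i then 1 else 0 := rfl

theorem grid_true_apply (k : ℕ) (i : Fin k) (a : Fin k × Fin k) :
    grid k true i a = if a.2 = i then 1 else 0 := rfl

/-- E1. -/
theorem grid_disjoint (k : ℕ) (c : Bool) (i i' : Fin k) (h : i ≠ i') (a : Fin k × Fin k) :
    grid k c i a = 0 ∨ grid k c i' a = 0 := by
  by_cases hi : (cond c a.2 a.1) = i
  · right
    rw [grid_apply, if_neg]
    rw [hi]
    exact h
  · left
    rw [grid_apply, if_neg hi]

/-- E2. -/
theorem grid_nonneg (k : ℕ) (c : Bool) (i : Fin k) (a : Fin k × Fin k) : 0 ≤ grid k c i a := by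
  rw [grid_apply]
  split_ifs <;> norm_num

/-- E3. -/
theorem grid_meet (k : ℕ) (i j : Fin k) :
    ∃ a, 0 < grid k false i a ∧ 0 < grid k true j a := by
  refine ⟨(i, j), ?_, ?_⟩
  · rw [grid_false_apply, if_pos rfl]
    exact one_pos
  · rw [grid_true_apply, if_pos rfl]
    exact one_pos

/-- A grid indicator takes only the values `0` and `1`. -/
theorem grid_eq_zero_or_one (k : ℕ) (c : Bool) (i : Fin k) (a : Fin k × Fin k) :
    grid k c i a = 0 ∨ grid k c i a = 1 := by
  rw [grid_apply]
  split_ifs
  · right; rfl
  · left; rfl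

/-- A point at which the grid indicator `grid k c i` equals `1`. -/
theorem grid_self (k : ℕ) (c : Bool) (i : Fin k) : grid k c i (i, i) = 1 := by
  cases c
  · rw [grid_false_apply, if_pos rfl]
  · rw [grid_true_apply, if_pos rfl]

/-- Distinct grid indicators are distinct functions (needs `k ≥ 2` to separate a row from a
column). -/
theorem grid_injective (k : ℕ) (hk : 2 ≤ k) (c c' : Bool) (i i' : Fin k)
    (h : grid k c i = grid k c' i') : c = c' ∧ i = i' := by
  have key : ∀ (i i' : Fin k), grid k false i ≠ grid k true i' := by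
    intro i i' hEq
    -- pick a column `b ≠ i'`
    obtain ⟨b, hb⟩ : ∃ b : Fin k, b ≠ i' := by
      by_cases h0 : i' = ⟨0, by omega⟩
      · exact ⟨⟨1, by omega⟩, by rw [h0]; intro hh; exact absurd (congrArg Fin.val hh) (by simp)⟩
      · exact ⟨⟨0, by omega⟩, fun hh => h0 hh.symm⟩
    have h1 := congrFun hEq (i, b)
    rw [grid_false_apply, grid_true_apply, if_pos rfl, if_neg hb] at h1
    exact one_ne_zero h1
  cases c <;> cases c'
  · refine ⟨rfl, ?_⟩
    have h1 := congrFun h (i, i)
    rw [grid_false_apply, grid_false_apply, if_pos rfl] at h1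
    by_contra hne
    rw [if_neg hne] at h1
    exact one_ne_zero h1
  · exact absurd h (key i i')
  · exact absurd h.symm (key i' i)
  · refine ⟨rfl, ?_⟩
    have h1 := congrFun h (i, i)
    rw [grid_true_apply, grid_true_apply, if_pos rfl] at h1
    by_contra hne
    rw [if_neg hne] at h1
    exact one_ne_zero h1

theorem special_apply (k : ℕ) (c s : Bool) (i : Fin k) :
    special k (c, s, i) = cond s (-(grid k c i)) (grid k c i) := rfl

/-- The special points are pairwise distinct. -/
theorem special_injective (k : ℕ) (hk : 2 ≤ k) : Function.Injective (special k) := by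
  rintro ⟨c, s, i⟩ ⟨c', s', i'⟩ h
  rw [special_apply, special_apply] at h
  have hself : grid k c i (i, i) = 1 := grid_self k c i
  have hself' : grid k c' i' (i', i') = 1 := grid_self k c' i'
  cases s <;> cases s'
  · -- both plus
    simp only [cond_false] at h
    obtain ⟨rfl, rfl⟩ := grid_injective k hk c c' i i' h
    rfl
  · -- plus vs minus: impossible
    exfalso
    simp only [cond_false, cond_true] at h
    have h1 := congrFun h (i, i)
    rw [Pi.neg_apply, hself] at h1
    rcases grid_eq_zero_or_one k c' i' (i, i) with h0 | h0 <;> rw [h0] at h1 <;> norm_num at h1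
  · -- minus vs plus: impossible
    exfalso
    simp only [cond_false, cond_true] at h
    have h1 := congrFun h (i', i')
    rw [Pi.neg_apply, hself'] at h1
    rcases grid_eq_zero_or_one k c i (i', i') with h0 | h0 <;> rw [h0] at h1 <;> norm_num at h1
  · -- both minus
    simp only [cond_true] at h
    have h' : grid k c i = grid k c' i' := neg_injective h
    obtain ⟨rfl, rfl⟩ := grid_injective k hk c c' i i' h'
    rfl

/-- The padding points are pairwise distinct (for `k ≥ 1`). -/
theorem pad_injective (k : ℕ) (hk : 1 ≤ k) : Function.Injective (pad k) := by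
  intro m m' h
  have h1 := congrFun h (⟨0, by omega⟩, ⟨0, by omega⟩)
  simp only [pad] at h1
  have h2 : (m : ℝ) = (m' : ℝ) := by linarith
  exact_mod_cast h2

/-- No special point is a padding point. -/
theorem special_ne_pad (k : ℕ) (csi : Bool × Bool × Fin k) (m : ℕ) : special k csi ≠ pad k m := by
  obtain ⟨c, s, i⟩ := csi
  intro h
  rw [special_apply] at h
  have h1 := congrFun h (i, i)
  have hself : grid k c i (i, i) = 1 := grid_self k c i
  simp only [pad] at h1
  cases s
  · simp only [cond_false] at h1
    rw [hself] at h1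
    -- 1 = 2 * m
    have h2 : ((1 : ℕ) : ℝ) = ((2 * m : ℕ) : ℝ) := by push_cast; linarith
    have h3 : (1 : ℕ) = 2 * m := by exact_mod_cast h2
    omega
  · simp only [cond_true] at h1
    rw [Pi.neg_apply, hself] at h1
    -- -1 = 2 * m
    have h2 : (0 : ℝ) ≤ (m : ℝ) := Nat.cast_nonneg m
    linarith

/-- E4: the source points are pairwise distinct. -/
theorem fam_injective (k r : ℕ) (hk : 2 ≤ k) : Function.Injective (fam k r) := by
  unfold fam
  refine Function.Injective.sumElim (special_injective k hk) ?_ ?_
  · intro m m' h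
    have h1 : ((m : ℕ)) = ((m' : ℕ)) := pad_injective k (by omega) h
    exact Fin.ext h1
  · intro csi m
    exact special_ne_pad k csi (m : ℕ)

end Crest.Agent.Helper25.S0359
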